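import Vale.Agent.P040.Cut.Defs

/-!
# Deleting a vertex, exchanging the classes (rows D1, D2)
-/

namespace Vale.Agent.P040.Cut

open Finset

variable {m n : ℕ}

/-- delete the vertex `a` of the first class -/
def TwoPageDrawing.del (D : TwoPageDrawing (m + 1) n) (a : Fin (m + 1)) : TwoPageDrawing m n where
  posA := fun i => D.posA (a.succAbove i)
  posB := D.posB
  monoA := fun i j h => D.monoA (Fin.strictMono_succAbove a h)
  monoB := D.monoB
  distinct := fun i j => D.distinct _ j
  page := fun i j => D.page (a.succAbove i) j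

open Classical in
/-- the finset of crossing pairs -/
noncomputable def TwoPageDrawing.crossSet (D : TwoPageDrawing m n) :
    Finset ((Fin m × Fin n) × (Fin m × Fin n)) :=
  univ.filter fun p => p.1.1 < p.2.1 ∧ D.Cross p.1 p.2

lemma crossings_eq_card (D : TwoPageDrawing m n) : D.crossings = D.crossSet.card := by
  classical
  unfold TwoPageDrawing.crossings TwoPageDrawing.crossSet
  rw [← Set.ncard_coe_finset]
  congr 1
  ext p
  simp

lemma card_del_le (D : TwoPageDrawing (m + 1) n) (a : Fin (m + 1)) :
    (D.del a).crossSet.card ≤ (D.crossSet.filter fun p => a ≠ p.1.1 ∧ a ≠ p.2.1).card := by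
  classical
  apply Finset.card_le_card_of_injOn
    (fun q => ((a.succAbove q.1.1, q.1.2), (a.succAbove q.2.1, q.2.2)))
  · intro q hq
    have hq' : q.1.1 < q.2.1 ∧ (D.del a).Cross q.1 q.2 := by
      simpa [TwoPageDrawing.crossSet] using hq
    have : (a.succAbove q.1.1 < a.succAbove q.2.1 ∧
        D.Cross (a.succAbove q.1.1, q.1.2) (a.succAbove q.2.1, q.2.2)) ∧
        a ≠ a.succAbove q.1.1 ∧ a ≠ a.succAbove q.2.1 :=
      ⟨⟨Fin.strictMono_succAbove a hq'.1, hq'.2⟩, (Fin.succAbove_ne a _).symm,
        (Fin.succAbove_ne a _).symm⟩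
    simpa [TwoPageDrawing.crossSet] using this
  · intro q _ q' _ h
    simp only [Prod.mk.injEq] at h
    obtain ⟨⟨h1, h2⟩, h3, h4⟩ := h
    have e1 := Fin.succAbove_right_injective h1
    have e3 := Fin.succAbove_right_injective h3
    ext <;> simp [e1, h2, e3, h4]

/-- (D1) Every crossing of `D` survives in exactly `m - 1` of the `m + 1` drawings `D.del a`; only
`≤` is needed.  Double count of the pairs (deleted vertex, crossing pair avoiding it). -/
lemma sum_del_le (D : TwoPageDrawing (m + 1) n) :
    ∑ a : Fin (m + 1), (D.del a).crossings ≤ (m - 1) * D.crossings := by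
  classical
  calc ∑ a : Fin (m + 1), (D.del a).crossings
      = ∑ a : Fin (m + 1), (D.del a).crossSet.card := by
        simp only [crossings_eq_card]
    _ ≤ ∑ a : Fin (m + 1), (D.crossSet.filter fun p => a ≠ p.1.1 ∧ a ≠ p.2.1).card :=
        Finset.sum_le_sum fun a _ => card_del_le D a
    _ = ∑ p ∈ D.crossSet, ((univ : Finset (Fin (m + 1))).filter
          fun a => a ≠ p.1.1 ∧ a ≠ p.2.1).card := by
        simp only [Finset.card_filter]
        rw [Finset.sum_comm]
    _ = ∑ p ∈ D.crossSet, (m - 1) := by
        apply Finset.sum_congr rfl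
        intro p hp
        have hne : p.1.1 ≠ p.2.1 := by
          simp only [TwoPageDrawing.crossSet, mem_filter, mem_univ, true_and] at hp
          exact ne_of_lt hp.1
        have : ((univ : Finset (Fin (m + 1))).filter fun a => a ≠ p.1.1 ∧ a ≠ p.2.1)
            = univ \ {p.1.1, p.2.1} := by
          ext a
          simp
        rw [this, Finset.card_sdiff_of_subset (Finset.subset_univ _), Finset.card_univ,
          Fintype.card_fin, Finset.card_pair hne]
        omega
    _ = (m - 1) * D.crossings := by
        rw [Finset.sum_const, smul_eq_mul, crossings_eq_card, mul_comm]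

/-- (D1) -/
lemma del_bound (c : ℕ) (h : ∀ D : TwoPageDrawing m n, c ≤ D.crossings)
    (D : TwoPageDrawing (m + 1) n) : (m + 1) * c ≤ (m - 1) * D.crossings := by
  calc (m + 1) * c = ∑ _a : Fin (m + 1), c := by simp
    _ ≤ ∑ a : Fin (m + 1), (D.del a).crossings := Finset.sum_le_sum fun a _ => h _
    _ ≤ _ := sum_del_le D

/-- exchange the two classes -/
def TwoPageDrawing.swap (D : TwoPageDrawing m n) : TwoPageDrawing n m where
  posA := D.posB
  posB := D.posA
  monoA := D.monoB
  monoB := D.monoA
  distinct := fun i j => (D.distinct j i).symm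
  page := fun i j => D.page j i

private lemma alt_flip {x y z w : ℝ} (h : Alternate x y z w) : Alternate y x w z := by
  unfold Alternate Inside Outside at *
  rw [min_comm y x, max_comm y x]
  tauto

private lemma alt_symm' {x y z w : ℝ} (h : Alternate x y z w) : Alternate z w x y := by
  unfold Alternate Inside Outside at *
  rcases le_total x y with hxy | hxy <;> rcases le_total z w with hzw | hzw <;>
    simp only [min_eq_left hxy, max_eq_right hxy, min_eq_right hxy, max_eq_left hxy,
      min_eq_left hzw, max_eq_right hzw, min_eq_right hzw, max_eq_left hzw] at h ⊢ <;>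
    rcases h with ⟨⟨h1, h2⟩, h3 | h3⟩ | ⟨⟨h1, h2⟩, h3 | h3⟩ <;>
    first
      | (left; constructor <;> [constructor; left] <;> linarith)
      | (left; constructor <;> [constructor; right] <;> linarith)
      | (right; constructor <;> [constructor; left] <;> linarith)
      | (right; constructor <;> [constructor; right] <;> linarith)

private lemma not_alt_same {x y z : ℝ} : ¬ Alternate x y z y := by
  unfold Alternate Inside Outside
  rintro (⟨-, h | h⟩ | ⟨⟨h1, h2⟩, -⟩)
  · exact absurd h (not_lt.mpr (min_le_right _ _))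
  · exact absurd h (not_lt.mpr (le_max_right _ _))
  · rcases le_total x y with hxy | hxy
    · rw [max_eq_right hxy] at h2; exact lt_irrefl _ h2
    · rw [min_eq_right hxy] at h1; exact lt_irrefl _ h1

private lemma crossings_swap_le (D : TwoPageDrawing m n) : D.swap.crossings ≤ D.crossings := by
  unfold TwoPageDrawing.crossings
  refine Set.ncard_le_ncard_of_injOn
    (fun p : (Fin n × Fin m) × (Fin n × Fin m) =>
      if p.1.2 < p.2.2 then ((p.1.2, p.1.1), (p.2.2, p.2.1)) else ((p.2.2, p.2.1), (p.1.2, p.1.1)))
    ?_ ?_ (Set.toFinite _)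
  · rintro ⟨⟨j, i⟩, ⟨j', i'⟩⟩ ⟨hj, hpage, halt⟩
    simp only [TwoPageDrawing.swap] at hj hpage halt
    have hne : i ≠ i' := by
      rintro rfl
      exact not_alt_same halt
    simp only [Set.mem_ofPred_eq]
    split_ifs with h
    · exact ⟨h, hpage, alt_flip halt⟩
    · exact ⟨lt_of_le_of_ne (not_lt.mp h) hne.symm, hpage.symm, alt_symm' (alt_flip halt)⟩
  · rintro ⟨⟨j, i⟩, ⟨j', i'⟩⟩ ⟨hj, -⟩ ⟨⟨l, k⟩, ⟨l', k'⟩⟩ ⟨hl, -⟩ heq
    simp only at hj hl heq
    split_ifs at heq with h1 h2 h2
    · simp only [Prod.mk.injEq] at heq ⊢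
      tauto
    · simp only [Prod.mk.injEq] at heq
      obtain ⟨⟨-, e1⟩, -, e2⟩ := heq
      subst e1 e2
      exact absurd hj (lt_asymm hl)
    · simp only [Prod.mk.injEq] at heq
      obtain ⟨⟨-, e1⟩, -, e2⟩ := heq
      subst e1 e2
      exact absurd hj (lt_asymm hl)
    · simp only [Prod.mk.injEq] at heq ⊢
      tauto

/-- (D2) Bijection between the two sets of crossing pairs: `((i,j),(i',j'))` (with `i < i'`) goes to
`((j,i),(j',i'))` if `j < j'` and to `((j',i'),(j,i))` otherwise; `j ≠ j'` for a crossing pair;
`Alternate x y z w ↔ Alternate y x w z` and `Alternate` is symmetric in the two edges.  It is enough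
to prove `≤` for every drawing and to apply it to `D` and `D.swap` (`D.swap.swap = D`). -/
lemma crossings_swap (D : TwoPageDrawing m n) : D.swap.crossings = D.crossings :=
  le_antisymm (crossings_swap_le D) (crossings_swap_le D.swap)

end Vale.Agent.P040.Cut
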