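import Mathlib

/-!
# Combinatorial data of a pair of stars in a two-page drawing
-/

namespace Vale.Agent.P040.Cut

/-- sum of `f k` over `k < n` (reduces well in the kernel) -/
def sumTo : ℕ → (ℕ → ℕ) → ℕ
  | 0, _ => 0
  | (k+1), f => sumTo k f + f k

/-- conjunction of `p k` over `k < n` -/
def allTo : ℕ → (ℕ → Bool) → Bool
  | 0, _ => true
  | (k+1), p => p k && allTo k p

/-- Let `b` lie in the gap number `g` of the first class (exactly `g` vertices of the first class
lie to the left of `b`) and `b'` in the gap number `g'`, with `b` to the left of `b'`.  `altB` says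
whether the ends of the edges `i b` and `i' b'` alternate on the spine. -/
def altB (i i' g g' : ℕ) : Bool :=
  if i < g then (decide (i < i') && decide (i' < g))
  else if i < g' then (decide (g ≤ i') && decide (i' < i))
  else (decide (i' < g) || decide (i < i'))

/-- number of crossings between the stars of `b` (gap `g`, pages = the bits of `s`) and of `b'`
(gap `g'`, pages = the bits of `l`), `b` to the left of `b'` -/
def crN (m g s g' l : ℕ) : ℕ :=
  ∑ i ∈ Finset.range m, ∑ i' ∈ Finset.range m,
    if altB i i' g g' && (s.testBit i == l.testBit i') then 1 else 0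

/-- number of the first `d` binary digits in which `x` and `y` differ -/
def dis (d x y : ℕ) : ℕ := ∑ k ∈ Finset.range d, if x.testBit k == y.testBit k then 0 else 1

/-- A cut certificate: `F g s` codes `d` two-valued features of the type `(g, s)` of a vertex of the
second class, and two vertices cross at least as often as they have equal features. -/
def IsCert (m d : ℕ) (F : ℕ → ℕ → ℕ) : Prop :=
  ∀ g g', g ≤ g' → g' ≤ m → ∀ s < 2 ^ m, ∀ l < 2 ^ m,
    d ≤ crN m g s g' l + dis d (F g s) (F g' l)

lemma sumTo_eq (n : ℕ) (f : ℕ → ℕ) : sumTo n f = ∑ k ∈ Finset.range n, f k := by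
  induction n with
  | zero => rfl
  | succ k ih => rw [sumTo, ih, Finset.sum_range_succ]

lemma allTo_iff (n : ℕ) (p : ℕ → Bool) : allTo n p = true ↔ ∀ k < n, p k = true := by
  induction n with
  | zero => simp [allTo]
  | succ k ih =>
    rw [allTo, Bool.and_eq_true, ih]
    constructor
    · rintro ⟨h1, h2⟩ j hj
      rcases Nat.lt_succ_iff_lt_or_eq.mp hj with h | h
      · exact h2 j h
      · exact h ▸ h1
    · intro h
      exact ⟨h k (Nat.lt_succ_self k), fun j hj => h j (Nat.lt_succ_of_lt hj)⟩

end Vale.Agent.P040.Cut
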