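import Vale.Agent.P040.Cut.Order

/-!
# Counting (rows C1 - C4)
-/

namespace Vale.Agent.P040.Cut

open Finset

variable {m n : ℕ}

/-- (C1) The crossings are at least the sum over the pairs `j < j'` of `pairCross`.
Let `C` be the finset of all `p` with `p.1.1 < p.2.1 ∧ D.Cross p.1 p.2` (so `D.crossings = C.card`,
`Set.ncard_coe_finset` / `Set.ncard_eq_toFinset_card'`).  The left side is the cardinality of
`A = {((j,j'),(i,i')) | j < j' ∧ D.Cross (i,j) (i',j')}` (`card_sigma` / `card_filter` +
`sum_product`).  Map `((j,j'),(i,i'))` to `((i,j),(i',j'))` if `i < i'` and to `((i',j'),(i,j))`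
otherwise (`i ≠ i'` by `not_alternate_self`; `Cross` is symmetric by `alternate_symm`).  The map is
injective on `A` because `j < j'` tells which case one is in.  `card_le_card_of_injOn`. -/
lemma sum_pairCross_le (D : TwoPageDrawing m n) :
    ∑ p ∈ (univ : Finset (Fin n × Fin n)).filter (fun p => p.1 < p.2), pairCross D p.1 p.2
      ≤ D.crossings := by
  classical
  set C : Finset ((Fin m × Fin n) × (Fin m × Fin n)) :=
    univ.filter (fun p => p.1.1 < p.2.1 ∧ D.Cross p.1 p.2) with hC
  have hcr : D.crossings = C.card := by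
    unfold TwoPageDrawing.crossings
    rw [← Set.ncard_coe_finset C]
    congr 1
    ext p
    simp [hC]
  rw [hcr]
  have hsum : ∑ p ∈ (univ : Finset (Fin n × Fin n)).filter (fun p => p.1 < p.2),
      pairCross D p.1 p.2 =
      (((univ : Finset (Fin n × Fin n)).filter (fun p => p.1 < p.2)).sigma
        (fun p => (univ : Finset (Fin m × Fin m)).filter
          fun q => D.Cross (q.1, p.1) (q.2, p.2))).card := by
    rw [Finset.card_sigma]
    apply Finset.sum_congr rfl
    intro p _
    unfold pairCross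
    congr
  rw [hsum]
  apply Finset.card_le_card_of_injOn
    (fun x : (_ : Fin n × Fin n) × (Fin m × Fin m) =>
      if x.2.1 < x.2.2 then ((x.2.1, x.1.1), (x.2.2, x.1.2))
      else ((x.2.2, x.1.2), (x.2.1, x.1.1)))
  · rintro ⟨⟨j, j'⟩, ⟨i, i'⟩⟩ hx
    simp only [coe_sigma, coe_filter, mem_univ, true_and, Set.mem_sigma_iff,
      Set.mem_ofPred_eq] at hx
    obtain ⟨hj, hc⟩ := hx
    simp only [hC, coe_filter, mem_univ, true_and, Set.mem_ofPred_eq]
    by_cases h : i < i'
    · rw [if_pos h]
      exact ⟨h, hc⟩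
    · rw [if_neg h]
      have hne : i ≠ i' := by
        rintro rfl
        exact not_alternate_self _ _ _ hc.2
      refine ⟨lt_of_le_of_ne (not_lt.mp h) hne.symm, hc.1.symm, ?_⟩
      exact alternate_symm _ _ _ _ hc.2
  · rintro ⟨⟨j, j'⟩, ⟨i, i'⟩⟩ hx ⟨⟨l, l'⟩, ⟨k, k'⟩⟩ hy hxy
    simp only [coe_sigma, coe_filter, mem_univ, true_and, Set.mem_sigma_iff,
      Set.mem_ofPred_eq] at hx hy
    obtain ⟨hj, -⟩ := hx
    obtain ⟨hl, -⟩ := hy
    simp only at hxy
    by_cases h : i < i' <;> by_cases h' : k < k'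
    · simp only [h, h', if_true, Prod.mk.injEq] at hxy
      obtain ⟨⟨rfl, rfl⟩, rfl, rfl⟩ := hxy
      rfl
    · simp only [h, h', if_true, if_false, Prod.mk.injEq] at hxy
      obtain ⟨⟨-, h1⟩, -, h2⟩ := hxy
      subst h1 h2
      exact absurd hj (not_lt.mpr hl.le)
    · simp only [h, h', if_true, if_false, Prod.mk.injEq] at hxy
      obtain ⟨⟨-, h1⟩, -, h2⟩ := hxy
      subst h1 h2
      exact absurd hj (not_lt.mpr hl.le)
    · simp only [h, h', if_false, Prod.mk.injEq] at hxy
      obtain ⟨⟨rfl, rfl⟩, rfl, rfl⟩ := hxy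
      rfl

private lemma mono_arith (a b : ℕ) :
    2 * (((a + b) / 2) * ((a + b - 1) / 2)) ≤ (a * a - a) + (b * b - b) := by
  have h1 : a ≤ a * a := Nat.le_mul_self a
  have h2 : b ≤ b * b := Nat.le_mul_self b
  obtain ⟨k, hk | hk⟩ := Nat.even_or_odd' (a + b)
  · have e1 : (a + b) / 2 = k := by omega
    have e2 : (a + b - 1) / 2 = k - 1 := by omega
    rw [e1, e2]
    rcases Nat.eq_zero_or_pos k with h0 | h0
    · subst h0; simp
    · obtain ⟨l, rfl⟩ : ∃ l, k = l + 1 := ⟨k - 1, by omega⟩
      simp only [Nat.add_sub_cancel]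
      zify [h1, h2]
      have hk' : (a : ℤ) + b = 2 * (l + 1) := by exact_mod_cast hk
      nlinarith [sq_nonneg ((a : ℤ) - b)]
  · have e1 : (a + b) / 2 = k := by omega
    have e2 : (a + b - 1) / 2 = k := by omega
    rw [e1, e2]
    zify [h1, h2]
    have hk' : (a : ℤ) + b = 2 * k + 1 := by exact_mod_cast hk
    have hne : (a : ℤ) - b ≥ 1 ∨ (b : ℤ) - a ≥ 1 := by omega
    rcases hne with h | h
    · nlinarith [mul_self_nonneg ((a : ℤ) - b - 1)]
    · nlinarith [mul_self_nonneg ((b : ℤ) - a - 1)]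

/-- (C2) Among `n` points coloured with two colours at least `⌊n/2⌋⌊(n-1)/2⌋` pairs are
monochromatic.  With `a`, `b` the sizes of the colour classes (`a + b = n`) the number of ordered
pairs `(j,j')`, `j ≠ j'`, of equal colour is `a(a-1)+b(b-1)`, twice the number wanted; then
arithmetic (parity of `n`). -/
lemma mono_pairs (n : ℕ) (β : Fin n → Bool) :
    (n / 2) * ((n - 1) / 2) ≤
      ((univ : Finset (Fin n × Fin n)).filter fun p => p.1 < p.2 ∧ β p.1 = β p.2).card := by
  set P := (univ : Finset (Fin n × Fin n)).filter fun p => p.1 < p.2 ∧ β p.1 = β p.2 with hP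
  set Q := (univ : Finset (Fin n × Fin n)).filter fun p => p.2 < p.1 ∧ β p.1 = β p.2 with hQ
  set A := (univ : Finset (Fin n)).filter fun j => β j = true with hA
  set B := (univ : Finset (Fin n)).filter fun j => β j = false with hB
  have hAB : A.card + B.card = n := by
    have := Finset.card_filter_add_card_filter_not (s := (univ : Finset (Fin n)))
      (fun j => β j = true)
    simp only [Bool.not_eq_true, card_univ, Fintype.card_fin] at this
    exact this
  have hPQ : Q.card = P.card := by
    apply Finset.card_bij (fun p _ => (p.2, p.1))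
    · intro p hp
      simp only [hQ, hP, mem_filter, mem_univ, true_and] at hp ⊢
      exact ⟨hp.1, hp.2.symm⟩
    · intro p _ q _ h
      simp only [Prod.mk.injEq] at h
      exact Prod.ext h.2 h.1
    · intro p hp
      refine ⟨(p.2, p.1), ?_, rfl⟩
      simp only [hQ, hP, mem_filter, mem_univ, true_and] at hp ⊢
      exact ⟨hp.1, hp.2.symm⟩
  have hdPQ : Disjoint P Q := by
    rw [Finset.disjoint_left]
    intro p hp hq
    simp only [hQ, hP, mem_filter, mem_univ, true_and] at hp hq
    exact absurd hp.1 (not_lt.mpr hq.1.le)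
  have hdAB : Disjoint A.offDiag B.offDiag := by
    rw [Finset.disjoint_left]
    intro p hp hq
    simp only [hA, hB, mem_offDiag, mem_filter, mem_univ, true_and] at hp hq
    rw [hp.1] at hq
    exact absurd hq.1 (by simp)
  have hU : P ∪ Q = A.offDiag ∪ B.offDiag := by
    ext p
    simp only [hP, hQ, hA, hB, mem_union, mem_offDiag, mem_filter, mem_univ, true_and]
    constructor
    · rintro (⟨h1, h2⟩ | ⟨h1, h2⟩)
      · cases hb : β p.1
        · right; exact ⟨rfl, by rw [← h2, hb], h1.ne⟩
        · left; exact ⟨rfl, by rw [← h2, hb], h1.ne⟩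
      · cases hb : β p.1
        · right; exact ⟨rfl, by rw [← h2, hb], h1.ne'⟩
        · left; exact ⟨rfl, by rw [← h2, hb], h1.ne'⟩
    · rintro (⟨h1, h2, h3⟩ | ⟨h1, h2, h3⟩)
      · rcases lt_or_gt_of_ne h3 with h | h
        · left; exact ⟨h, by rw [h1, h2]⟩
        · right; exact ⟨h, by rw [h1, h2]⟩
      · rcases lt_or_gt_of_ne h3 with h | h
        · left; exact ⟨h, by rw [h1, h2]⟩
        · right; exact ⟨h, by rw [h1, h2]⟩
  have hcard : 2 * P.card = (A.card * A.card - A.card) + (B.card * B.card - B.card) := by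
    have h1 := Finset.card_union_of_disjoint hdPQ
    have h2 := Finset.card_union_of_disjoint hdAB
    rw [hU, h2, Finset.offDiag_card, Finset.offDiag_card, hPQ] at h1
    omega
  have := mono_arith A.card B.card
  rw [hAB] at this
  omega

/-- (C3) `d - dis` is the number of equal digits. -/
lemma agree_add_dis (d x y : ℕ) :
    (∑ k ∈ range d, if x.testBit k == y.testBit k then 1 else 0) + dis d x y = d := by
  unfold dis
  rw [← sum_add_distrib]
  have h : ∀ k ∈ range d, ((if x.testBit k == y.testBit k then 1 else 0) +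
      (if x.testBit k == y.testBit k then 0 else 1) : ℕ) = 1 := by
    intro k _
    split_ifs <;> rfl
  rw [sum_congr rfl h]
  simp

/-- (C4) The Zarankiewicz bound from a cut certificate.  With `Φ j = F (gap D j) (code D j)`:
`D.crossings ≥ ∑_{j<j'} pairCross = ∑_{j<j'} crN ≥ ∑_{j<j'} ∑_{k<d} [digit k of Φ j = digit k of Φ j']`
(`IsCert`, `agree_add_dis`, `gap_mono`, `gap_le`, `code_lt`) `= ∑_{k<d} #{j<j' : equal digit k}`
(`sum_comm`, `card_filter`) `≥ d * (⌊n/2⌋⌊(n-1)/2⌋)` (`mono_pairs`). -/
theorem zar_of_cert (d : ℕ) (F : ℕ → ℕ → ℕ) (hF : IsCert m d F) (D : TwoPageDrawing m n) :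
    d * ((n / 2) * ((n - 1) / 2)) ≤ D.crossings := by
  classical
  have h1 : ∀ p ∈ (univ : Finset (Fin n × Fin n)).filter (fun p => p.1 < p.2),
      (∑ k ∈ range d, if (F (gap D p.1) (code D p.1)).testBit k ==
        (F (gap D p.2) (code D p.2)).testBit k then 1 else 0) ≤ pairCross D p.1 p.2 := by
    intro p hp
    have hlt : p.1 < p.2 := (mem_filter.mp hp).2
    rw [pairCross_eq D hlt]
    have hc := hF (gap D p.1) (gap D p.2) (gap_mono D hlt) (gap_le D p.2) (code D p.1)
      (code_lt D p.1) (code D p.2) (code_lt D p.2)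
    have ha := agree_add_dis d (F (gap D p.1) (code D p.1)) (F (gap D p.2) (code D p.2))
    omega
  have h2 : ∀ k ∈ range d, (n / 2) * ((n - 1) / 2) ≤
      ∑ p ∈ (univ : Finset (Fin n × Fin n)).filter (fun p => p.1 < p.2),
        if (F (gap D p.1) (code D p.1)).testBit k ==
          (F (gap D p.2) (code D p.2)).testBit k then 1 else 0 := by
    intro k _
    refine (mono_pairs n (fun j => (F (gap D j) (code D j)).testBit k)).trans (le_of_eq ?_)
    rw [card_filter, sum_filter]
    refine sum_congr rfl fun p _ => ?_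
    by_cases h : p.1 < p.2 <;> simp [h]
  calc d * ((n / 2) * ((n - 1) / 2)) = ∑ _k ∈ range d, (n / 2) * ((n - 1) / 2) := by simp
    _ ≤ ∑ k ∈ range d, ∑ p ∈ (univ : Finset (Fin n × Fin n)).filter (fun p => p.1 < p.2),
        (if (F (gap D p.1) (code D p.1)).testBit k ==
          (F (gap D p.2) (code D p.2)).testBit k then 1 else 0) := sum_le_sum h2
    _ = ∑ p ∈ (univ : Finset (Fin n × Fin n)).filter (fun p => p.1 < p.2), ∑ k ∈ range d,
        (if (F (gap D p.1) (code D p.1)).testBit k ==
          (F (gap D p.2) (code D p.2)).testBit k then 1 else 0) := sum_comm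
    _ ≤ ∑ p ∈ (univ : Finset (Fin n × Fin n)).filter (fun p => p.1 < p.2),
        pairCross D p.1 p.2 := sum_le_sum h1
    _ ≤ D.crossings := sum_pairCross_le D

end Vale.Agent.P040.Cut
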