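import Mathlib

namespace Vale.Agent.P040.Cut

/-- A two-page (book) drawing of the complete bipartite graph `K_{m,n}`: all vertices lie on the
spine (the real line), at pairwise distinct points; the vertices of each class are labelled in
their order along the spine; every edge is drawn in one of the two pages (half-planes). -/
structure TwoPageDrawing (m n : ℕ) where
  posA : Fin m → ℝ
  posB : Fin n → ℝ
  monoA : StrictMono posA
  monoB : StrictMono posB
  distinct : ∀ i j, posA i ≠ posB j
  page : Fin m → Fin n → Bool

/-- `z` lies strictly between `x` and `y`. -/
def Inside (x y z : ℝ) : Prop := min x y < z ∧ z < max x y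

/-- `z` lies strictly outside the segment with ends `x` and `y`. -/
def Outside (x y z : ℝ) : Prop := z < min x y ∨ max x y < z

/-- The pairs `{x,y}` and `{z,w}` of points of the spine alternate. -/
def Alternate (x y z w : ℝ) : Prop :=
  (Inside x y z ∧ Outside x y w) ∨ (Inside x y w ∧ Outside x y z)

/-- Two edges cross: they lie in the same page and their ends alternate along the spine. -/
def TwoPageDrawing.Cross {m n : ℕ} (D : TwoPageDrawing m n) (e f : Fin m × Fin n) : Prop :=
  D.page e.1 e.2 = D.page f.1 f.2 ∧
    Alternate (D.posA e.1) (D.posB e.2) (D.posA f.1) (D.posB f.2)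

/-- The number of crossings: the number of unordered pairs of crossing edges (each such pair is
listed once, the edge with the smaller end in the first class coming first). -/
noncomputable def TwoPageDrawing.crossings {m n : ℕ} (D : TwoPageDrawing m n) : ℕ :=
  Set.ncard {p : (Fin m × Fin n) × (Fin m × Fin n) | p.1.1 < p.2.1 ∧ D.Cross p.1 p.2}

end Vale.Agent.P040.Cut
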