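import Vale.Agent.P040.Cut.Defs
import Vale.Agent.P040.Cut.Comb

/-!
# From a drawing to gaps and page codes (rows O1 - O5)
-/

namespace Vale.Agent.P040.Cut

open Finset

/-- (O1) Pure order lemma on four distinct reals with `y < w`.  Unfold `Alternate`, `Inside`,
`Outside`, split the `if`s, rewrite `min`/`max` with `min_eq_left` etc., finish by `linarith` /
`lt_or_gt_of_ne`. -/
lemma alternate_iff (x y z w : ℝ) (hyw : y < w) (hxy : x ≠ y) (hxw : x ≠ w) (hzy : z ≠ y)
    (hzw : z ≠ w) (hxz : x ≠ z) :
    Alternate x y z w ↔
      (if x < y then (x < z ∧ z < y) else if x < w then (y < z ∧ z < x) else (z < y ∨ x < z)) := by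
  unfold Alternate Inside Outside
  rcases lt_or_gt_of_ne hxy with h1 | h1
  · rw [if_pos h1, min_eq_left h1.le, max_eq_right h1.le]
    constructor
    · rintro (⟨h, _⟩ | ⟨⟨_, h⟩, _⟩)
      · exact h
      · exact absurd h (by linarith)
    · intro h
      exact Or.inl ⟨h, Or.inr hyw⟩
  · rw [if_neg (not_lt.2 h1.le), min_eq_right h1.le, max_eq_left h1.le]
    rcases lt_or_gt_of_ne hxw with h2 | h2
    · rw [if_pos h2]
      constructor
      · rintro (⟨h, _⟩ | ⟨⟨_, h⟩, _⟩)
        · exact h
        · exact absurd h (by linarith)
      · intro h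
        exact Or.inl ⟨h, Or.inr h2⟩
    · rw [if_neg (not_lt.2 h2.le)]
      constructor
      · rintro (⟨_, h | h⟩ | ⟨_, h⟩)
        · exact absurd h (by linarith)
        · exact absurd h (by linarith)
        · exact h
      · intro h
        exact Or.inr ⟨⟨hyw, h2⟩, h⟩

/-- (O1) an edge never alternates with an edge having the same end in the first class -/
lemma not_alternate_self (x y w : ℝ) : ¬ Alternate x y x w := by
  unfold Alternate Inside Outside
  rintro (⟨⟨h1, h2⟩, _⟩ | ⟨_, h | h⟩)
  · rcases le_total x y with h | h
    · rw [min_eq_left h] at h1; exact lt_irrefl _ h1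
    · rw [max_eq_left h] at h2; exact lt_irrefl _ h2
  · exact absurd (min_le_left x y) (not_le.2 h)
  · exact absurd (le_max_left x y) (not_le.2 h)

/-- (O1) `Alternate` is symmetric in the two edges (four distinct points). -/
lemma alternate_symm (x y z w : ℝ) (h : Alternate x y z w) : Alternate z w x y := by
  unfold Alternate Inside Outside at *
  rcases le_total x y with h1 | h1 <;> rcases le_total z w with h2 | h2 <;>
    simp only [min_eq_left, min_eq_right, max_eq_left, max_eq_right, h1, h2] at h ⊢ <;>
    rcases h with ⟨⟨a, b⟩, c | c⟩ | ⟨⟨a, b⟩, c | c⟩ <;>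
    first
      | (exfalso; linarith)
      | (left; refine ⟨⟨by linarith, by linarith⟩, ?_⟩; first | (left; linarith) | (right; linarith))
      | (right; refine ⟨⟨by linarith, by linarith⟩, ?_⟩; first | (left; linarith) | (right; linarith))

variable {m n : ℕ}

/-- the number of vertices of the first class to the left of the vertex `j` of the second class -/
noncomputable def gap (D : TwoPageDrawing m n) (j : Fin n) : ℕ :=
  (univ.filter fun i : Fin m => D.posA i < D.posB j).card

/-- (O2) The set `{i | posA i < posB j}` is an initial segment of `Fin m` because `posA` is strictly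
monotone, so it is `{i | i.val < card}`.  (For instance: it equals `univ.filter (·.val < k)` for
`k` its cardinality; or induction; or `Finset.card` of `Fin` initial segments, `Fin.card_filter_lt`
type lemmas.) -/
lemma lt_gap_iff (D : TwoPageDrawing m n) (i : Fin m) (j : Fin n) :
    D.posA i < D.posB j ↔ i.val < gap D j := by
  unfold gap
  constructor
  · intro h
    have hsub : Finset.Iic i ⊆ univ.filter fun i : Fin m => D.posA i < D.posB j := by
      intro i' hi'
      rw [Finset.mem_Iic] at hi'
      rw [mem_filter]
      exact ⟨mem_univ _, lt_of_le_of_lt (D.monoA.monotone hi') h⟩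
    have := card_le_card hsub
    rw [Fin.card_Iic] at this
    omega
  · intro h
    by_contra hn
    have hsub : (univ.filter fun i : Fin m => D.posA i < D.posB j) ⊆ Finset.Iio i := by
      intro i' hi'
      rw [mem_filter] at hi'
      rw [Finset.mem_Iio]
      by_contra hle
      exact hn (lt_of_le_of_lt (D.monoA.monotone (not_lt.mp hle)) hi'.2)
    have := card_le_card hsub
    rw [Fin.card_Iio] at this
    omega

/-- (O2) -/
lemma gap_le (D : TwoPageDrawing m n) (j : Fin n) : gap D j ≤ m := by
  unfold gap
  exact (card_filter_le _ _).trans (by simp)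

/-- (O2) -/
lemma gap_mono (D : TwoPageDrawing m n) {j j' : Fin n} (h : j < j') : gap D j ≤ gap D j' := by
  unfold gap
  apply card_le_card
  intro i hi
  rw [mem_filter] at hi ⊢
  exact ⟨mem_univ _, hi.2.trans (D.monoB h)⟩

/-- (O3) From `alternate_iff`, `not_alternate_self` (case `i = i'`), `lt_gap_iff`, `gap_mono`,
`D.monoA.lt_iff_lt`, `D.monoB`, `D.distinct`. -/
lemma alternate_iff_altB (D : TwoPageDrawing m n) (i i' : Fin m) {j j' : Fin n} (h : j < j') :
    Alternate (D.posA i) (D.posB j) (D.posA i') (D.posB j') ↔
      altB i.val i'.val (gap D j) (gap D j') = true := by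
  by_cases hii : i = i'
  · subst hii
    constructor
    · intro h1
      exact absurd h1 (not_alternate_self _ _ _)
    · intro h1
      exfalso
      unfold altB at h1
      split_ifs at h1 with h2 h3
      · simp at h1
      · simp at h1
      · simp at h1
        omega
  · have hxz : D.posA i ≠ D.posA i' := fun e => hii (D.monoA.injective e)
    rw [alternate_iff _ _ _ _ (D.monoB h) (D.distinct i j) (D.distinct i j') (D.distinct i' j)
      (D.distinct i' j') hxz]
    have e1 : D.posB j < D.posA i' ↔ gap D j ≤ i'.val := by
      rw [← not_lt, ← lt_gap_iff, not_lt]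
      exact ⟨fun h => h.le, fun h => lt_of_le_of_ne h (D.distinct i' j).symm⟩
    simp only [lt_gap_iff, D.monoA.lt_iff_lt, e1, Fin.lt_def]
    unfold altB
    split_ifs <;> simp

/-- the pages of the edges at `j`, as the binary digits of a number -/
def code (D : TwoPageDrawing m n) (j : Fin n) : ℕ := Nat.ofBits fun i => D.page i j

/-- (O4) `Nat.ofBits_lt_two_pow` -/
lemma code_lt (D : TwoPageDrawing m n) (j : Fin n) : code D j < 2 ^ m :=
  Nat.ofBits_lt_two_pow _

/-- (O4) `Nat.testBit_ofBits_lt` -/
lemma testBit_code (D : TwoPageDrawing m n) (i : Fin m) (j : Fin n) :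
    (code D j).testBit i.val = D.page i j := by
  unfold code
  rw [Nat.testBit_ofBits_lt _ i.val i.isLt]

open Classical in
/-- number of ordered pairs `(i, i')` such that the edges `i j` and `i' j'` cross -/
noncomputable def pairCross (D : TwoPageDrawing m n) (j j' : Fin n) : ℕ :=
  ((univ : Finset (Fin m × Fin m)).filter fun q => D.Cross (q.1, j) (q.2, j')).card

/-- (O5) `card_filter`, `Fintype.sum_prod_type`, `Fin.sum_univ_eq_sum_range` (twice), then termwise
by `alternate_iff_altB` and `testBit_code`. -/
lemma pairCross_eq (D : TwoPageDrawing m n) {j j' : Fin n} (h : j < j') :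
    pairCross D j j' = crN m (gap D j) (code D j) (gap D j') (code D j') := by
  classical
  unfold pairCross crN
  rw [card_filter, Fintype.sum_prod_type,
    ← Fin.sum_univ_eq_sum_range (fun i => ∑ i' ∈ Finset.range m,
      if altB i i' (gap D j) (gap D j') && ((code D j).testBit i == (code D j').testBit i')
        then 1 else 0) m]
  refine sum_congr rfl fun i _ => ?_
  rw [← Fin.sum_univ_eq_sum_range (fun i' =>
      if altB i i' (gap D j) (gap D j') && ((code D j).testBit i == (code D j').testBit i')
        then 1 else 0) m]
  refine sum_congr rfl fun i' _ => ?_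
  have hiff : D.Cross (i, j) (i', j') ↔
      (altB i i' (gap D j) (gap D j') && ((code D j).testBit i == (code D j').testBit i')) = true := by
    rw [Bool.and_eq_true, beq_iff_eq, testBit_code, testBit_code, ← alternate_iff_altB D i i' h]
    unfold TwoPageDrawing.Cross
    exact and_comm
  by_cases hC : D.Cross (i, j) (i', j')
  · rw [if_pos hC, if_pos (hiff.mp hC)]
  · rw [if_neg hC, if_neg (fun h' => hC (hiff.mpr h'))]

end Vale.Agent.P040.Cut
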