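import Vale.Agent.P040.Cut.Comb

/-!
# Checking a certificate with packed arithmetic (rows K1 - K5)

All `2 ^ m` values of `l` are treated at once: a function `f : ℕ → ℕ` with values `< 256` is packed
into the number `∑ l < L, f l * 256 ^ l`.
-/

namespace Vale.Agent.P040.Cut

open Finset

/-- evaluate `x` first (for the kernel) -/
def force (x : ℕ) (k : ℕ → Bool) : Bool :=
  match x with
  | 0 => k 0
  | (y+1) => k (y+1)

/-- evaluate the members of a list first -/
def forceList : List ℕ → (List ℕ → Bool) → Bool
  | [], k => k []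
  | (x :: xs), k => force x fun x' => forceList xs fun xs' => k (x' :: xs')

def pack (L : ℕ) (f : ℕ → ℕ) : ℕ := sumTo L fun l => f l * 256 ^ l

def Mk (L : ℕ) (β : Bool) (i' : ℕ) : ℕ := pack L fun l => if l.testBit i' == β then 1 else 0

def Bk (F : ℕ → ℕ → ℕ) (L g' k : ℕ) (β : Bool) : ℕ :=
  pack L fun l => if (F g' l).testBit k == β then 0 else 1

/-- the check for a fixed right gap `g'` and all left gaps `g ≤ g'` -/
def chkG (F : ℕ → ℕ → ℕ) (m d g' : ℕ) : Bool :=
  force (pack (2^m) fun _ => 1) fun ones =>
  forceList ((List.range m).map (Mk (2^m) false)) fun M0 =>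
  forceList ((List.range m).map (Mk (2^m) true)) fun M1 =>
  forceList ((List.range d).map fun k => Bk F (2^m) g' k false) fun B0 =>
  forceList ((List.range d).map fun k => Bk F (2^m) g' k true) fun B1 =>
  allTo (g'+1) fun g =>
    forceList ((List.range m).map fun i =>
      sumTo m fun i' => if altB i i' g g' then M0.getD i' 0 else 0) fun R0 =>
    forceList ((List.range m).map fun i =>
      sumTo m fun i' => if altB i i' g g' then M1.getD i' 0 else 0) fun R1 =>
    allTo (2^m) fun s =>
      force (F g s) fun fs =>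
      ((sumTo m (fun i => bif s.testBit i then R1.getD i 0 else R0.getD i 0)
        + sumTo d (fun k => bif fs.testBit k then B1.getD k 0 else B0.getD k 0)
        + (128 - d) * ones) &&& (128 * ones)) == 128 * ones

/-- (K1) -/
lemma force_eq (x : ℕ) (k : ℕ → Bool) : force x k = k x := by
  cases x <;> rfl

/-- (K1) -/
lemma forceList_eq (xs : List ℕ) (k : List ℕ → Bool) : forceList xs k = k xs := by
  induction xs generalizing k with
  | nil => rfl
  | cons x xs ih => simp only [forceList, force_eq, ih]

/-- (K1) -/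
lemma getD_map_range (n : ℕ) (f : ℕ → ℕ) (i : ℕ) (hi : i < n) :
    ((List.range n).map f).getD i 0 = f i := by
  simp [List.getD, hi]

/-- (K2) -/
lemma pack_eq (L : ℕ) (f : ℕ → ℕ) : pack L f = ∑ l ∈ range L, f l * 256 ^ l := sumTo_eq _ _

/-- (K2) -/
lemma pack_add (L : ℕ) (f g : ℕ → ℕ) : pack L f + pack L g = pack L fun l => f l + g l := by
  simp only [pack_eq, ← Finset.sum_add_distrib, add_mul]

/-- (K2) -/
lemma pack_const_mul (L c : ℕ) (f : ℕ → ℕ) : c * pack L f = pack L fun l => c * f l := by
  simp only [pack_eq, Finset.mul_sum, mul_assoc]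

/-- (K2) -/
lemma pack_sum (L n : ℕ) (f : ℕ → ℕ → ℕ) :
    ∑ i ∈ range n, pack L (f i) = pack L fun l => ∑ i ∈ range n, f i l := by
  simp only [pack_eq, Finset.sum_mul]
  exact Finset.sum_comm

/-- (K3) -/
lemma pack_succ (L : ℕ) (f : ℕ → ℕ) : pack (L+1) f = pack L f + f L * 256 ^ L := rfl

/-- (K3) -/
lemma pack_lt (L : ℕ) (f : ℕ → ℕ) (hf : ∀ l < L, f l < 256) : pack L f < 256 ^ L := by
  induction L with
  | zero => simp [pack, sumTo]
  | succ L ih =>
    have h1 := ih (fun l hl => hf l (by omega))
    have h2 := hf L (by omega)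
    rw [pack_succ, pow_succ]
    have h3 : f L * 256 ^ L ≤ 255 * 256 ^ L := Nat.mul_le_mul_right _ (by omega)
    omega

/-- (K3) Digits of a packed number.  Induction on `L`: `pack (L+1) f = 2^(8L) * f L + pack L f`
with `pack L f < 2^(8L)` (`pack_lt`), then `Nat.testBit_two_pow_mul_add`. -/
lemma testBit_pack (L : ℕ) (f : ℕ → ℕ) (hf : ∀ l < L, f l < 256) (l b : ℕ) (hl : l < L)
    (hb : b < 8) : (pack L f).testBit (8 * l + b) = (f l).testBit b := by
  induction L with
  | zero => omega
  | succ L ih =>
    have h1 := pack_lt L f (fun l hl => hf l (by omega))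
    have e : (256 : ℕ) ^ L = 2 ^ (8 * L) := by
      rw [pow_mul]; norm_num
    rw [e] at h1
    have e2 : pack (L+1) f = 2 ^ (8 * L) * f L + pack L f := by
      rw [pack_succ, e]; ring
    rw [e2, Nat.testBit_two_pow_mul_add _ h1]
    by_cases hlL : l < L
    · rw [if_pos (by omega)]
      exact ih (fun l hl => hf l (by omega)) hlL
    · have : l = L := by omega
      subst this
      rw [if_neg (by omega)]
      congr 1
      omega

/-- (K4) The comparison of all lanes at once.  Take the digit number `8 l + 7` of both sides of `h`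
(`Nat.testBit_and`, `testBit_pack`; `(128 : ℕ).testBit 7 = true`), get
`(f l + (128 - T)).testBit 7 = true`, hence `128 ≤ f l + (128 - T)` (`Nat.ge_two_pow_of_testBit`). -/
lemma lanes_ge (L T : ℕ) (f : ℕ → ℕ) (hT : T ≤ 128) (hf : ∀ l < L, f l + (128 - T) < 256)
    (h : (pack L f + (128 - T) * pack L (fun _ => 1)) &&& (128 * pack L fun _ => 1)
      = 128 * pack L (fun _ => 1)) :
    ∀ l < L, T ≤ f l := by
  intro l hl
  rw [pack_const_mul, pack_const_mul, pack_add] at h
  have h1 := congrArg (fun x => x.testBit (8 * l + 7)) h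
  simp only [Nat.testBit_and] at h1
  rw [testBit_pack L _ (fun l hl => by simpa using hf l hl) l 7 hl (by norm_num),
    testBit_pack L _ (fun l hl => by norm_num) l 7 hl (by norm_num)] at h1
  have h2 : (128 * 1 : ℕ).testBit 7 = true := by decide
  rw [h2, Bool.and_true] at h1
  have h3 := Nat.ge_two_pow_of_testBit h1
  norm_num at h3
  omega

/-- (K5) lane form of the crossing numbers -/
lemma Xcr_eq (m L g g' s : ℕ) :
    (∑ i ∈ range m, ∑ i' ∈ range m, if altB i i' g g' then Mk L (s.testBit i) i' else 0)
      = pack L fun l => crN m g s g' l := by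
  rw [pack_eq]
  simp only [crN, Finset.sum_mul]
  conv_rhs => rw [Finset.sum_comm]
  refine Finset.sum_congr rfl fun i _ => ?_
  conv_rhs => rw [Finset.sum_comm]
  refine Finset.sum_congr rfl fun i' _ => ?_
  rw [Mk, pack_eq]
  by_cases h : altB i i' g g' = true
  · simp only [h, if_true, Bool.true_and]
    refine Finset.sum_congr rfl fun l _ => ?_
    congr 1
    cases l.testBit i' <;> cases s.testBit i <;> rfl
  · simp [h]

/-- (K5) lane form of the numbers of different features -/
lemma Xdis_eq (F : ℕ → ℕ → ℕ) (d L g' x : ℕ) :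
    (∑ k ∈ range d, Bk F L g' k (x.testBit k)) = pack L fun l => dis d x (F g' l) := by
  rw [pack_eq]
  simp only [dis, Finset.sum_mul]
  conv_rhs => rw [Finset.sum_comm]
  refine Finset.sum_congr rfl fun k _ => ?_
  rw [Bk, pack_eq]
  refine Finset.sum_congr rfl fun l _ => ?_
  congr 1
  cases (F g' l).testBit k <;> cases x.testBit k <;> rfl

/-- (K5) -/
lemma crN_le (m g s g' l : ℕ) : crN m g s g' l ≤ m * m := by
  unfold crN
  calc (∑ i ∈ Finset.range m, ∑ i' ∈ Finset.range m,
        if altB i i' g g' && (s.testBit i == l.testBit i') then 1 else 0)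
      ≤ ∑ i ∈ Finset.range m, ∑ i' ∈ Finset.range m, 1 := by
        refine Finset.sum_le_sum fun i _ => Finset.sum_le_sum fun i' _ => ?_
        split_ifs <;> omega
    _ = m * m := by simp

/-- (K5) -/
lemma dis_le (d x y : ℕ) : dis d x y ≤ d := by
  unfold dis
  calc (∑ k ∈ Finset.range d, if x.testBit k == y.testBit k then 0 else 1)
      ≤ ∑ k ∈ Finset.range d, 1 := by
        refine Finset.sum_le_sum fun k _ => ?_
        split_ifs <;> omega
    _ = d := by simp

/-- (K6) Soundness of the check.  Unfold `chkG`, remove `force`, `forceList` (`force_eq`,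
`forceList_eq`), use `allTo_iff`, `sumTo_eq`, `getD_map_range` (inside sums: `Finset.sum_congr`),
`Bool.cond` by cases on the digit, `Xcr_eq`, `Xdis_eq`, `pack_add`, and `lanes_ge` with
`f l = crN m g s g' l + dis d (F g s) (F g' l)`, `T = d`. -/
theorem cert_of_chkG (F : ℕ → ℕ → ℕ) (m d g' : ℕ) (hm : m * m + 128 < 256) (hd : d ≤ 128)
    (h : chkG F m d g' = true) :
    ∀ g ≤ g', ∀ s < 2 ^ m, ∀ l < 2 ^ m, d ≤ crN m g s g' l + dis d (F g s) (F g' l) := by
  intro g hg s hs
  have h1 := h
  simp only [chkG, force_eq, forceList_eq] at h1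
  rw [allTo_iff] at h1
  have h2 := h1 g (Nat.lt_succ_of_le hg)
  rw [allTo_iff] at h2
  have h3 := h2 s hs
  rw [beq_iff_eq] at h3
  have hX : sumTo m (fun i => bif s.testBit i then
        ((List.range m).map fun i => sumTo m fun i' => if altB i i' g g' then
          ((List.range m).map (Mk (2^m) true)).getD i' 0 else 0).getD i 0
      else
        ((List.range m).map fun i => sumTo m fun i' => if altB i i' g g' then
          ((List.range m).map (Mk (2^m) false)).getD i' 0 else 0).getD i 0)
      = pack (2^m) fun l => crN m g s g' l := by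
    rw [sumTo_eq, ← Xcr_eq]
    apply Finset.sum_congr rfl
    intro i hi
    have hi' := Finset.mem_range.mp hi
    rw [getD_map_range _ _ _ hi', getD_map_range _ _ _ hi', sumTo_eq, sumTo_eq]
    cases s.testBit i
    · simp only [cond_false]
      apply Finset.sum_congr rfl
      intro i' hi2
      rw [getD_map_range _ _ _ (Finset.mem_range.mp hi2)]
    · simp only [cond_true]
      apply Finset.sum_congr rfl
      intro i' hi2
      rw [getD_map_range _ _ _ (Finset.mem_range.mp hi2)]
  have hY : sumTo d (fun k => bif (F g s).testBit k then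
        ((List.range d).map fun k => Bk F (2^m) g' k true).getD k 0
      else ((List.range d).map fun k => Bk F (2^m) g' k false).getD k 0)
      = pack (2^m) fun l => dis d (F g s) (F g' l) := by
    rw [sumTo_eq, ← Xdis_eq]
    apply Finset.sum_congr rfl
    intro k hk
    have hk' := Finset.mem_range.mp hk
    rw [getD_map_range _ _ _ hk', getD_map_range _ _ _ hk']
    cases (F g s).testBit k <;> rfl
  rw [hX, hY, pack_add] at h3
  refine lanes_ge (2^m) d (fun l => crN m g s g' l + dis d (F g s) (F g' l)) hd ?_ h3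
  intro l _
  have a1 := crN_le m g s g' l
  have a2 := dis_le d (F g s) (F g' l)
  show crN m g s g' l + dis d (F g s) (F g' l) + (128 - d) < 256
  omega

/-- (K6) -/
theorem isCert_of_chk (F : ℕ → ℕ → ℕ) (m d : ℕ) (hm : m * m + 128 < 256) (hd : d ≤ 128)
    (h : ∀ g' ≤ m, chkG F m d g' = true) : IsCert m d F := by
  intro g g' hg hg' s hs l hl
  exact cert_of_chkG F m d g' hm hd (h g' hg') g hg s hs l hl

end Vale.Agent.P040.Cut
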