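import Vale.Agent.P040.Cut.Pack

/-!
# The cut certificate for `m = 3` (found by a SAT solver), checked by the kernel
-/

namespace Vale.Agent.P040.Cut

/-- the table of the features: the entry for the gap `g` holds, for every `s < 2 ^ 3`, the 1
features of the type `(g, s)` in the binary digits `1 * s, ..., 1 * s + 0` -/
def tab3 : ℕ → ℕ
  | 0 => 204
  | 1 => 240
  | 2 => 170
  | _ => 204

def F3 (g s : ℕ) : ℕ := (tab3 g >>> (1 * s)) % 2

set_option maxRecDepth 100000 in
theorem chk3_0 : chkG F3 3 1 0 = true := by decide +kernel

set_option maxRecDepth 100000 in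
theorem chk3_1 : chkG F3 3 1 1 = true := by decide +kernel

set_option maxRecDepth 100000 in
theorem chk3_2 : chkG F3 3 1 2 = true := by decide +kernel

set_option maxRecDepth 100000 in
theorem chk3_3 : chkG F3 3 1 3 = true := by decide +kernel

theorem isCert3 : IsCert 3 1 F3 := by
  refine isCert_of_chk F3 3 1 (by norm_num) (by norm_num) fun g' hg' => ?_
  interval_cases g'
  · exact chk3_0
  · exact chk3_1
  · exact chk3_2
  · exact chk3_3

end Vale.Agent.P040.Cut
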