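import Vale.Agent.P040.Cut.Pack

/-!
# The cut certificate for `m = 5` (found by a SAT solver), checked by the kernel
-/

namespace Vale.Agent.P040.Cut

/-- the table of the features: the entry for the gap `g` holds, for every `s < 2 ^ 5`, the 4
features of the type `(g, s)` in the binary digits `4 * s, ..., 4 * s + 3` -/
def tab5 : ℕ → ℕ
  | 0 => 339572058037978192740130146036862882048
  | 1 => 340279597685383409302750734835734609920
  | 2 => 338947926255782792916742905691872723072
  | 3 => 333516700878396572596218005985997940896
  | 4 => 334148826893028259663628025360181016864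
  | _ => 339572058037978192740130146036862882048

def F5 (g s : ℕ) : ℕ := (tab5 g >>> (4 * s)) % 16

set_option maxRecDepth 100000 in
theorem chk5_0 : chkG F5 5 4 0 = true := by decide +kernel

set_option maxRecDepth 100000 in
theorem chk5_1 : chkG F5 5 4 1 = true := by decide +kernel

set_option maxRecDepth 100000 in
theorem chk5_2 : chkG F5 5 4 2 = true := by decide +kernel

set_option maxRecDepth 100000 in
theorem chk5_3 : chkG F5 5 4 3 = true := by decide +kernel

set_option maxRecDepth 100000 in
theorem chk5_4 : chkG F5 5 4 4 = true := by decide +kernel

set_option maxRecDepth 100000 in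
theorem chk5_5 : chkG F5 5 4 5 = true := by decide +kernel

theorem isCert5 : IsCert 5 4 F5 := by
  refine isCert_of_chk F5 5 4 (by norm_num) (by norm_num) fun g' hg' => ?_
  interval_cases g'
  · exact chk5_0
  · exact chk5_1
  · exact chk5_2
  · exact chk5_3
  · exact chk5_4
  · exact chk5_5

end Vale.Agent.P040.Cut
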